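import Vale.Agent.N264X.Defs
import Vale.Agent.P264F72.Rows
import Vale.Agent.N264.Final

/-! # P264: the short definitions agree with the working definitions -/

set_option linter.unusedSectionVars false

open scoped Manifold ContDiff ENNReal Topology ComplexOrder
open Set Complex MeasureTheory Filter

noncomputable section

namespace Vale.Agent.N264X

open Vale.Agent.P272.K (Cm Chart At jacM cHess SmoothFn)
open Vale.Agent.P272.K.AMP (at_chartAt)

variable {n : ℕ} {X : Type} [TopologicalSpace X] [ChartedSpace (Cn n) X]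
  [IsManifold 𝓘(ℂ, Cn n) ω X] {w : Form n X}

theorem kahler_iff : IsKahler w ↔ P264F.IsKahler (n := n) w := by
  constructor
  · intro h
    refine ⟨fun e he => (h e he).1, fun e he z hz => ((h e he).2 z hz).1, fun x u v => ?_,
      fun x v hv => ?_⟩
    · have h1 := ((h _ (chart_mem_atlas _ x)).2 _ (mem_chart_target _ x)).2.1 u v
      have h2 : loc w (chartAt (Cn n) x) (chartAt (Cn n) x x) = _ := P264F.loc_self (n := n) w x
      rw [h2] at h1
      exact h1
    · have h1 := ((h _ (chart_mem_atlas _ x)).2 _ (mem_chart_target _ x)).2.2 v hv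
      have h2 : loc w (chartAt (Cn n) x) (chartAt (Cn n) x x) = _ := P264F.loc_self (n := n) w x
      rw [h2] at h1
      exact h1
  · intro h e he
    refine ⟨h.smooth e he, fun z hz => ⟨h.closed e he z hz, ?_⟩⟩
    obtain ⟨x, hx, rfl⟩ := P264F.tgt he hz
    have hi := P264F.inv_loc (h.inv' x) hx
    exact ⟨hi, hi.posDef_iff.1 ((P264F.kahler_M h).posDef e x hx)⟩

theorem mat_ric (h : P264F.IsKahler (n := n) w) (x : X) :
    P264F.Inv (P264F.W (n := n) (ric w) x) ∧ P264F.mat (P264F.W (n := n) (ric w) x) =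
      -cHess (P264Z.logdet (P264F.M (n := n) w) (chartAt (Cm n) x)) (chartAt (Cm n) x x) := by
  have h2 := (P264Z.logdet_smooth (P264F.kahler_M h).toIsHermitian
    (at_chartAt (n := n) x)).of_le P264Z.two_le
  exact ⟨(P264F.inv_ddb h2).neg, (P264F.mat_neg _).trans (congrArg Neg.neg (P264F.mat_ddb h2))⟩

theorem ric_eq (h : P264F.IsKahler (n := n) w) : ric w = P264F.ric (n := n) w := funext fun x =>
  (mat_ric h x).1.ext (P264F.inv_ric h x)
    ((mat_ric h x).2.trans (P264F.mat_log h (at_chartAt x)).symm)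

theorem scal_eq (h : P264F.IsKahler (n := n) w) (x : X) : scal w x = P264F.scal (n := n) w x := by
  unfold scal
  rw [ric_eq h]
  rfl

variable [MeasurableSpace X]

theorem flow_iff {T : ℝ≥0∞} {φ : ℝ → X → ℝ} :
    IsFlow w T φ ↔ P264F.IsFlow (n := n) w (avg w) T φ :=
  ⟨fun h => ⟨h.1, h.2, fun t ht => kahler_iff.1 (h.3 t ht), fun t ht x => by
      have h1 := h.4 t ht x
      rw [scal_eq (kahler_iff.1 (h.3 t ht))] at h1
      exact h1⟩,
    fun h => ⟨h.1, h.2, fun t ht => kahler_iff.2 (h.3 t ht), fun t ht x => by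
      rw [scal_eq (w := pert w (φ t)) (h.3 t ht)]
      exact h.4 t ht x⟩⟩

variable [BorelSpace X]

theorem meas_tgt (e : Chart n X) {s : Set X} (hs : MeasurableSet s) :
    MeasurableSet (e.symm ⁻¹' s ∩ e.target) := by
  have h := (MeasurableEmbedding.subtype_coe e.open_target.measurableSet).measurableSet_image.2
    (e.continuousOn_symm.domRestrict.measurable hs)
  convert h using 1
  ext z
  simp only [mem_inter_iff, mem_preimage, mem_image, Subtype.exists, exists_and_right,
    exists_eq_right]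
  exact ⟨fun h => ⟨h.2, h.1⟩, fun ⟨h1, h2⟩ => ⟨h2, h1⟩⟩

theorem volIn_apply (e : Chart n X) {s : Set X} (hs : MeasurableSet s) :
    volIn w e s = ∫⁻ z in e.symm ⁻¹' s ∩ e.target,
      ENNReal.ofReal (P264F.M (n := n) w e z).det.re := by
  unfold volIn
  rw [Measure.map_apply_of_aemeasurable ((e.continuousOn_symm.aemeasurable
    e.open_target.measurableSet).mono_ac (withDensity_absolutelyContinuous _ _)) hs,
    ← restrict_withDensity e.open_target.measurableSet,
    Measure.restrict_apply' e.open_target.measurableSet, withDensity_apply _ (meas_tgt e hs)]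
  rfl

theorem volIn_compat (h : P264F.IsKahler (n := n) w) {e e' : Chart n X}
    (he : e ∈ atlas (Cm n) X) (he' : e' ∈ atlas (Cm n) X) {s : Set X} (hs : MeasurableSet s)
    (h1 : s ⊆ e.source) (h2 : s ⊆ e'.source) : volIn w e s = volIn w e' s := by
  have hD := (P272.K.INT.IsKahler.isClosedForm (P264F.kahler_M h)).isDensity
  have hat : ∀ z ∈ e.symm ⁻¹' s ∩ e.target, At e (e.symm z) ∧ At e' (e.symm z) := fun z hz =>
    ⟨⟨he, e.map_target hz.2⟩, he', h2 hz.1⟩
  have him : (fun z => e' (e.symm z)) '' (e.symm ⁻¹' s ∩ e.target) =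
      e'.symm ⁻¹' s ∩ e'.target := by
    ext y
    constructor
    · rintro ⟨z, hz, rfl⟩
      refine ⟨?_, e'.map_source (h2 hz.1)⟩
      rw [mem_preimage, e'.left_inv (h2 hz.1)]
      exact hz.1
    · intro hy
      refine ⟨e (e'.symm y), ⟨?_, e.map_source (h1 hy.1)⟩, ?_⟩
      · rw [mem_preimage, e.left_inv (h1 hy.1)]
        exact hy.1
      · simp only [e.left_inv (h1 hy.1), e'.right_inv hy.2]
  rw [volIn_apply e hs, volIn_apply e' hs, ← him,
    lintegral_image_eq_lintegral_abs_det_fderiv_mul volume (meas_tgt e hs)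
      (f' := fun z => fderiv ℝ (fun z => e' (e.symm z)) z) (fun z hz => ?_) (fun z hz y hy q => ?_)]
  · refine setLIntegral_congr_fun (meas_tgt e hs) fun z hz => ?_
    have hdet := P272.K.INT.det_trans (hat z hz).1 (hat z hz).2
    have hch := hD.change e e' _ (hat z hz).1 (hat z hz).2
    rw [e.right_inv hz.2] at hdet hch
    rw [hdet, hch, abs_of_nonneg (by positivity), ← ENNReal.ofReal_mul (by positivity), mul_comm]
  · have h3 := P272.K.INT.transition_contDiffAt (hat z hz).1 (hat z hz).2
    rw [e.right_inv hz.2] at h3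
    exact ((h3.differentiableAt (by simp)).restrictScalars ℝ).hasFDerivAt.hasFDerivWithinAt
  · exact e.symm.injOn hz.2 hy.2 (e'.injOn (h2 hz.1) (h2 hy.1) q)

theorem volIn_inter (e : Chart n X) {s : Set X} (hs : MeasurableSet s) :
    volIn w e (s ∩ e.source) = volIn w e s := by
  rw [volIn_apply e hs, volIn_apply e (hs.inter e.open_source.measurableSet)]
  congr 2
  ext z
  exact ⟨fun h => ⟨h.1.1, h.2⟩, fun h => ⟨⟨h.1, e.map_target h.2⟩, h.2⟩⟩

theorem volIn_le {e : Chart n X} (he : e ∈ atlas (Cm n) X) : volIn w e ≤ vol w :=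
  le_iSup₂ (f := fun e (_ : e ∈ atlas (Cn n) X) => volIn w e) e he

theorem vol_restrict (h : P264F.IsKahler (n := n) w) {e : Chart n X} (he : e ∈ atlas (Cm n) X) :
    (vol w).restrict e.source = volIn w e := by
  have hS := e.open_source.measurableSet
  have h0 : (volIn w e).restrict e.source = volIn w e := by
    ext s hs
    rw [Measure.restrict_apply hs, volIn_inter e hs]
  refine le_antisymm ?_ (h0.symm.trans_le (Measure.restrict_mono subset_rfl (volIn_le he)))
  have h1 : vol w ≤ volIn w e + (vol w).restrict e.sourceᶜ := by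
    refine iSup₂_le fun e' he' => ?_
    rw [← Measure.restrict_add_restrict_compl (μ := volIn w e') hS]
    refine add_le_add (Measure.le_iff.2 fun s hs => ?_)
      (Measure.restrict_mono subset_rfl (volIn_le he'))
    rw [Measure.restrict_apply hs, ← volIn_inter e' (hs.inter hS),
      ← volIn_compat h he he' ((hs.inter hS).inter e'.open_source.measurableSet)
        (inter_subset_left.trans inter_subset_right) inter_subset_right]
    exact measure_mono (inter_subset_left.trans inter_subset_left)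
  refine (Measure.restrict_mono subset_rfl h1).trans (le_of_eq ?_)
  rw [Measure.restrict_add, h0, Measure.restrict_restrict hS, inter_compl_self,
    Measure.restrict_empty, add_zero]

theorem vol_fin [CompactSpace X] (h : P264F.IsKahler (n := n) w) : vol w univ < ⊤ := by
  have hD := (P272.K.INT.IsKahler.isClosedForm (P264F.kahler_M h)).isDensity
  have : IsLocallyFiniteMeasure (vol w) := ⟨fun x => by
    set e := chartAt (Cm n) x
    have hx := at_chartAt (n := n) x
    obtain ⟨K, hK, hK1, hK2⟩ := exists_compact_subset e.open_target hx.mem_target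
    have ho : IsOpen (e.source ∩ e ⁻¹' interior K) := e.isOpen_inter_preimage isOpen_interior
    refine ⟨_, ho.mem_nhds ⟨hx.2, hK1⟩, ?_⟩
    rw [← Measure.restrict_eq_self _ inter_subset_left, vol_restrict h hx.1,
      volIn_apply e ho.measurableSet]
    refine lt_of_le_of_lt (lintegral_mono_set (t := K) fun z hz => ?_)
      (((hD.continuousOn hx.1).mono hK2).integrableOn_compact hK).lintegral_lt_top
    have := hz.1.2
    rw [mem_preimage, e.right_inv hz.2] at this
    exact interior_subset this⟩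
  exact measure_lt_top _ _

theorem vol_pos [Nonempty X] (h : P264F.IsKahler (n := n) w) : 0 < vol w univ := by
  have hD := (P272.K.INT.IsKahler.isClosedForm (P264F.kahler_M h)).isDensity
  obtain ⟨x⟩ := ‹Nonempty X›
  set e := chartAt (Cm n) x
  have hx := at_chartAt (n := n) x
  refine lt_of_lt_of_le ?_ (volIn_le hx.1 univ)
  have hT := e.open_target.measurableSet
  rw [volIn_apply e MeasurableSet.univ, preimage_univ, univ_inter, pos_iff_ne_zero, Ne,
    lintegral_eq_zero_iff' ((hD.continuousOn hx.1).aemeasurable hT).ennreal_ofReal]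
  intro h0
  have h1 : ∀ᵐ z ∂(volume.restrict e.target), False := by
    filter_upwards [h0, ae_restrict_mem hT] with z hz hz'
    obtain ⟨y, hy, rfl⟩ := P264F.tgt hx.1 hz'
    exact absurd (ENNReal.ofReal_eq_zero.1 hz)
      (not_le.2 (P264Z.det_re_pos ((P264F.kahler_M h).posDef e y hy)))
  rw [eventually_false_iff_eq_bot, ae_eq_bot, Measure.restrict_eq_zero] at h1
  exact (e.open_target.measure_pos volume ⟨_, hx.mem_target⟩).ne' h1

variable [T2Space X] [CompactSpace X] [ConnectedSpace X]

theorem integrable_of_cont (h : P264F.IsKahler (n := n) w) {f : X → ℝ} (hf : Continuous f) :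
    Integrable f (vol w) := by
  have : IsFiniteMeasure (vol w) := ⟨vol_fin h⟩
  exact (BoundedContinuousFunction.mkOfCompact ⟨f, hf⟩).integrable _

theorem cont_scal (h : P264F.IsKahler (n := n) w) : Continuous (scal w) := by
  refine P272.K.INT.SmoothFn.continuous (n := n) fun e x hx => ?_
  refine (P264Z.scal_smooth (P264F.kahler_M h).toIsHermitian hx).congr_of_eventuallyEq
    (P264F.ev_at hx (P := fun z => scal w (e.symm z) = P264Z.scal (P264F.M (n := n) w e) z)
      fun y hy => ?_)
  rw [hy.left_inv, scal_eq h, P264F.scal_eq h hy]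

theorem int_vol (h : P264F.IsKahler (n := n) w) {f : X → ℝ} (hf : Continuous f) :
    P272.K.IsIntegral (fun e z => f (e.symm z) * (P264F.M (n := n) w e z).det.re)
      (∫ x, f x ∂vol w) := by
  intro N e ρ he hρ hs h1
  have hD := (P272.K.INT.IsKahler.isClosedForm (P264F.kahler_M h)).isDensity
  have e1 : ∫ x, f x ∂vol w = ∫ x, ∑ i, ρ i x * f x ∂vol w := by
    simp only [← Finset.sum_mul, h1, one_mul]
  have hc : ∀ i, Continuous fun x => ρ i x * f x := fun i => (hρ i).mul hf
  rw [e1, integral_finsetSum _ fun i _ => integrable_of_cont h (hc i)]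
  refine Finset.sum_congr rfl fun i _ => ?_
  have hT := (e i).open_target.measurableSet
  rw [← setIntegral_eq_integral_of_forall_compl_eq_zero (s := (e i).source) (μ := vol w)
    (fun x hx => by rw [image_eq_zero_of_notMem_tsupport fun q => hx (hs i q), zero_mul]),
    vol_restrict h (he i), volIn, integral_map (((e i).continuousOn_symm.aemeasurable
      hT).mono_ac (withDensity_absolutelyContinuous _ _)) (hc i).aestronglyMeasurable]
  refine Eq.trans ?_ (integral_withDensity_eq_integral_toReal_smul₀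
    ((hD.continuousOn (he i)).aemeasurable hT).ennreal_ofReal
    (Eventually.of_forall fun _ => ENNReal.ofReal_lt_top) _).symm
  refine setIntegral_congr_fun hT fun z hz => ?_
  obtain ⟨y, hy, rfl⟩ := P264F.tgt (he i) hz
  simp only [smul_eq_mul]
  rw [ENNReal.toReal_ofReal (P264Z.det_re_pos ((P264F.kahler_M h).posDef _ y hy)).le]
  ring

theorem isAvg (h : P264F.IsKahler (n := n) w) :
    P264F.IsAvg (n := n) w (avg w) := by
  have h0 : 0 < (vol w).real univ := ENNReal.toReal_pos (vol_pos h).ne' (vol_fin h).ne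
  refine (P264F.avg_iff h).2 ⟨1 * _, 1 * _, P264F.int_congr 1 (fun e x hx => ?_)
    (int_vol h (cont_scal h)), P264F.int_congr 1 (fun e x hx => ?_)
    (int_vol h (continuous_const (y := (1 : ℝ)))), by simpa using h0, ?_⟩
  · rw [hx.left_inv, scal_eq h, P264F.scal_eq h hx, one_mul]
  · rw [one_mul, one_mul]
  · rw [avg, average_eq]
    simp [div_eq_inv_mul]

theorem avg_class (hw : IsKahler w) {u : X → ℝ} (hu : Smooth n u)
    (hk : IsKahler (pert w u)) : avg (pert w u) = avg w := by
  obtain ⟨h1, h2, -⟩ := (P264F.part1 P264F.rows n X).2.2 w (kahler_iff.1 hw)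
  exact h1.unique ((h2 u hu (kahler_iff.1 hk) _).1 (isAvg (kahler_iff.1 hk)))
    (isAvg (kahler_iff.1 hw))

theorem maximal (hw : IsKahler w) : ∃ φ, IsFlow w (Tmax w) φ ∧
    ∀ T ψ, IsFlow w T ψ → T ≤ Tmax w ∧ ∀ t ∈ Time T, ψ t = φ t := by
  obtain ⟨T, ⟨φ, h1, h2⟩, -⟩ := ((P264F.part1 P264F.rows n X).2.2 w (kahler_iff.1 hw)).2.2
    (avg w)
  have e : Tmax w = T := le_antisymm (sSup_le fun T' ⟨ψ, h⟩ => (h2 T' ψ (flow_iff.1 h)).1)
    (le_sSup ⟨φ, flow_iff.2 h1⟩)
  rw [e]
  exact ⟨φ, flow_iff.2 h1, fun T' ψ h => h2 T' ψ (flow_iff.1 h)⟩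

theorem tmax_top (hw : IsKahler w) {s : ℝ} (h : ∀ x, scal w x = s) : Tmax w = ⊤ := by
  have hw' := kahler_iff.1 hw
  have : IsFiniteMeasure (vol w) := ⟨vol_fin hw'⟩
  have : NeZero (vol w) := ⟨Measure.measure_univ_ne_zero.1 (vol_pos hw').ne'⟩
  refine top_le_iff.1 (le_sSup ⟨fun _ _ => 0, flow_iff.2 (P264F.flow_zero hw' (fun x => ?_) ⊤)⟩)
  rw [← scal_eq hw', h]
  simp only [avg, h, average_const]

omit [MeasurableSpace X] [BorelSpace X] in
theorem examples {m : ℕ} [NeZero m] (h : P264Z.NoGlobal m) (k : ℕ) :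
    ∃ (X : Type) (_ : TopologicalSpace X) (_ : T2Space X) (_ : CompactSpace X)
      (_ : ConnectedSpace X) (_ : ChartedSpace (Cn (m + k)) X)
      (_ : IsManifold 𝓘(ℂ, Cn (m + k)) ω X) (_ : MeasurableSpace X) (_ : BorelSpace X)
      (w : Form (m + k) X) (l : ℝ), IsKahler w ∧ 0 < l ∧
      (∀ x, val (ric w) x = l • val w x ∧ scal w x = (m + k : ℕ) * l) ∧ Tmax w = ⊤ ∧
      ∀ ε > 0, ∃ u : X → ℝ, Smooth (m + k) u ∧ IsKahler (pert w u) ∧ Tmax (pert w u) ≤ ε := by
  obtain ⟨X, i1, i2, i3, i4, i5, i6, g, l, hg, hl, hke, -, hno⟩ := N264.examples h k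
  obtain ⟨w, hw, ha⟩ := P264F.exists_form hg
  let _ : MeasurableSpace X := borel X
  have : BorelSpace X := ⟨rfl⟩
  have hs : ∀ x, scal w x = (m + k : ℕ) * l := fun x => by
    rw [scal_eq hw, P264F.scal_eq hw (at_chartAt x), ha.scal (at_chartAt x),
      (hke _ x (at_chartAt x)).2]
  refine ⟨X, i1, i2, i3, i4, i5, i6, inferInstance, inferInstance, w, l, kahler_iff.2 hw, hl,
    fun x => ⟨?_, hs x⟩, tmax_top (kahler_iff.2 hw) hs, fun ε hε => ?_⟩
  · have hx := at_chartAt (n := m + k) x
    refine (mat_ric hw x).1.ext (β := l • P264F.W w x) (fun u v => ?_) ?_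
    · simp only [ContinuousAlternatingMap.smul_apply, hw.inv' x u v]
    · have e1 : P264Z.logdet (P264F.M w) (chartAt (Cm (m + k)) x) =ᶠ[𝓝 (chartAt (Cm (m + k)) x x)]
          fun y => Real.log (g (chartAt (Cm (m + k)) x) y).det.re := by
        filter_upwards [ha.ev hx] with z hz
        rw [← hz]
        rfl
      rw [(mat_ric hw x).2, P272.K.cHess_congr e1, (hke _ x hx).1, ← ha _ x hx, P264F.M,
        P264F.loc_self]
      ext i j
      simp only [P264F.mat, Matrix.smul_apply, Matrix.of_apply, smul_eq_mul,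
        ContinuousAlternatingMap.smul_apply, ofReal_mul]
      ring
  · obtain ⟨δ, -, h0, h1⟩ := ENNReal.lt_iff_exists_real_btwn.1 hε
    have hδ : 0 < δ := ENNReal.ofReal_pos.1 h0
    obtain ⟨u, hu, hk, -, hn⟩ := hno δ hδ
    have hk' := (P264F.kahler_add hw hu).2 ((ha.addDd u).symm.kahler hk)
    refine ⟨u, P264F.smooth_iff.2 hu, kahler_iff.2 hk', sSup_le fun T ⟨φ, hφ⟩ => ?_⟩
    by_contra hT
    obtain ⟨r, -, hr1, hr2⟩ := ENNReal.lt_iff_exists_real_btwn.1 (h1.trans (not_le.1 hT))
    refine hn _ r ((ENNReal.ofReal_lt_ofReal_iff_of_nonneg hδ.le).1 hr1)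
      ⟨φ, ((ha.addDd u).flow ((P264F.M_add w hu).flow
        ((P264F.flow_iff hk').1 (flow_iff.1 hφ)))).mono fun t ht =>
      ⟨ht.1, (ENNReal.ofReal_le_ofReal ht.2.le).trans_lt hr2⟩⟩

end Vale.Agent.N264X

end
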