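import Mathlib.Analysis.Calculus.DifferentialForm.Basic
import Mathlib.Geometry.Manifold.MFDeriv.Defs
import Mathlib.Geometry.Manifold.ContMDiff.Defs
import Mathlib.MeasureTheory.Integral.Average
import Mathlib.MeasureTheory.Measure.Lebesgue.Complex
import Mathlib.LinearAlgebra.Matrix.NonsingularInverse
import Mathlib.LinearAlgebra.Matrix.Trace

/-! # P264: Kähler forms, scalar curvature, its average, the Calabi flow and `T_max` -/

open scoped Manifold ContDiff ENNReal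
open Set Complex MeasureTheory

noncomputable section

namespace Vale.Agent.N264X

/-- `ℂⁿ`. -/
abbrev Cn (n : ℕ) : Type := Fin n → ℂ

/-- Real alternating 2-forms on `ℂⁿ`. -/
abbrev Two (n : ℕ) : Type := Cn n [⋀^Fin 2]→L[ℝ] ℝ

variable {n : ℕ}

/-- The coefficients `g_{j k̄}` of a real `(1,1)`-form `α = i ∑ g_{j k̄} dz_j ∧ dz̄_k`. -/
def mat (α : Two n) : Matrix (Fin n) (Fin n) ℂ :=
  Matrix.of fun j k =>
    (α ![Pi.single j 1, Pi.single k I] - I * α ![Pi.single j 1, Pi.single k 1]) / 2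

/-- `i∂∂̄f = -½ d(df ∘ J)` at `z`, `J` the multiplication by `i`. -/
def ddb (f : Cn n → ℝ) (z : Cn n) : Two n :=
  (-2⁻¹ : ℝ) • extDeriv (fun y => ContinuousAlternatingMap.ofSubsingleton ℝ (Cn n) ℝ (0 : Fin 1)
    ((fderiv ℝ f y).comp (I • ContinuousLinearMap.id ℝ (Cn n)))) z

variable (n) (X : Type) [TopologicalSpace X] [ChartedSpace (Cn n) X]

/-- Real 2-forms on `X`. -/
abbrev Form : Type := (x : X) → TangentSpace 𝓘(ℝ, Cn n) x [⋀^Fin 2]→L[ℝ] ℝ

variable {X}

/-- `u` is a smooth real function on `X`. -/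
def Smooth (u : X → ℝ) : Prop := ContMDiff 𝓘(ℝ, Cn n) 𝓘(ℝ, ℝ) ∞ u

variable {n}

/-- The value of `w` at `x` as a form on `ℂⁿ` (Mathlib identifies the tangent space at `x` with
`ℂⁿ` by the chart at `x`). -/
def val (w : Form n X) (x : X) : Two n := w x

/-- The form `w + i∂∂̄u`. -/
def pert (w : Form n X) (u : X → ℝ) : Form n X := fun x =>
  val w x + ddb (fun z => u ((chartAt (Cn n) x).symm z)) (chartAt (Cn n) x x)

/-- The form `w` in the chart `e`: its pull-back by `e⁻¹`. -/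
def loc (w : Form n X) (e : OpenPartialHomeomorph X (Cn n)) (z : Cn n) : Two n :=
  (val w (e.symm z)).compContinuousLinearMap (mfderiv 𝓘(ℝ, Cn n) 𝓘(ℝ, Cn n) e.symm z)

/-- A smooth Kähler form: in every holomorphic chart smooth, closed, `J`-invariant, positive. -/
def IsKahler (w : Form n X) : Prop :=
  ∀ e ∈ atlas (Cn n) X, ContDiffOn ℝ ∞ (loc w e) e.target ∧ ∀ z ∈ e.target,
    extDeriv (loc w e) z = 0 ∧ (∀ u v, loc w e z ![I • u, I • v] = loc w e z ![u, v]) ∧
      ∀ v ≠ 0, 0 < loc w e z ![v, I • v]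

/-- The Ricci form `Ric(w) = -i∂∂̄ log det (g_{j k̄})`. -/
def ric (w : Form n X) : Form n X := fun x =>
  -ddb (fun z => Real.log (mat (loc w (chartAt (Cn n) x) z)).det.re) (chartAt (Cn n) x x)

/-- The scalar curvature `S(w) = tr_w Ric(w) = ∑ g^{j k̄} R_{j k̄}`. -/
def scal (w : Form n X) (x : X) : ℝ := ((mat (val w x))⁻¹ * mat (val (ric w) x)).trace.re

variable [MeasurableSpace X]

/-- The measure `det (g_{j k̄}) dx dy`, that is `wⁿ / (2ⁿ n!)`, on the domain of the chart `e`. -/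
def volIn (w : Form n X) (e : OpenPartialHomeomorph X (Cn n)) : Measure X :=
  ((volume.restrict e.target).withDensity
    fun z => ENNReal.ofReal (mat (loc w e z)).det.re).map e.symm

/-- The measure `wⁿ / (2ⁿ n!)` on `X`: the least measure above those of the charts. -/
def vol (w : Form n X) : Measure X := ⨆ e ∈ atlas (Cn n) X, volIn w e

/-- The average `S̄ = ∫ S(w) wⁿ / ∫ wⁿ` of the scalar curvature. -/
def avg (w : Form n X) : ℝ := ⨍ x, scal w x ∂vol w

/-- The time interval `[0,T)`, `0 ≤ T ≤ ∞`. -/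
def Time (T : ℝ≥0∞) : Set ℝ := {t | 0 ≤ t ∧ ENNReal.ofReal t < T}

/-- `φ` is a smooth solution on `[0,T)` of the Calabi flow from `w`: `φ(0) = 0`, `w + i∂∂̄φ(t)` is a
Kähler form and `∂φ/∂t = S(w + i∂∂̄φ(t)) - S̄`. -/
structure IsFlow (w : Form n X) (T : ℝ≥0∞) (φ : ℝ → X → ℝ) : Prop where
  smooth : ContMDiffOn (𝓘(ℝ, ℝ).prod 𝓘(ℝ, Cn n)) 𝓘(ℝ, ℝ) ∞ (fun p : ℝ × X => φ p.1 p.2)
    (Time T ×ˢ univ)
  init : ∀ x, φ 0 x = 0
  kahler : ∀ t ∈ Time T, IsKahler (pert w (φ t))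
  eqn : ∀ t ∈ Time T, ∀ x,
    HasDerivWithinAt (fun τ => φ τ x) (scal (pert w (φ t)) x - avg w) (Time T) t

/-- `T_max`: the supremum of the `T` with a smooth solution on `[0,T)`. -/
def Tmax (w : Form n X) : ℝ≥0∞ := sSup {T | ∃ φ, IsFlow w T φ}

end Vale.Agent.N264X

end
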